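import Vale.Agent.P167.H714.C1.Dom

/-!
# P167, general `q`, route (C): **(C1)**, helper199's `S_C1`
-/

set_option autoImplicit false

open Set Metric Topology Filter

namespace Vale.Agent.P167.H714.C1

open Vale.Agent.P167 Relation
open Vale.Agent.P167.E6 Vale.Agent.P167.E2
open Vale.Agent.P145.FB (PStep)
open Vale.Agent.P167.H871 (Pt)
open Vale.Agent.P167.FKA (Cor)
open Vale.Agent.P153.R2.Final (dom circ toC IsUniformizer)
open Vale.Agent.P167.H199.C (Close Adm Mar Hit Vis VisC fArc wArc shift S_C1)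
open Vale.Agent.P167.QC (om)

theorem pos_eq (δ : ℝ) (s : Pt) : H199.C.pos δ s = pos δ s := rfl

/-! ### `Hit` and `Hc` -/

/-- The event `Hit` with the larger obstacle. -/
theorem hc_of_hit {δ : ℝ} (hδ : 0 < δ) {A A' B : Set ℂ} (hA : ∀ z ∈ A', ∀ z', dist z z' ≤ δ → z' ∈ A)
    {ω : Cfg} {s : Pt} (h : ω ∈ Hit δ A B s) : Hc true ω (Cl δ A') (Cl δ B) s := by
  obtain ⟨h0, u, hu, hp⟩ := h
  refine ⟨u, u, ⟨pos δ u, hu, inC_pos hδ ⟨Or.inl rfl, Or.inl rfl⟩⟩, ⟨Or.inl rfl, Or.inl rfl⟩, ?_⟩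
  clear hu
  have key : ReflTransGen (PStep {v | ω v = true ∧ v ∉ Cl δ A'}) s u ∧ pos δ u ∉ A := by
    induction hp with
    | refl => exact ⟨ReflTransGen.refl, h0⟩
    | tail _ hbc ih =>
      obtain ⟨h1, h2⟩ := hbc
      refine ⟨ih.1.tail ⟨h1.1, h1.2.1, h1.2.2, ?_⟩, h2⟩
      rintro ⟨z, hz, hzv⟩
      obtain ⟨v, hv, h3, h4, -⟩ := pstep_cor h1
      refine h2 (hA z hz _ (inC_dist hδ hzv (inC_pos hδ ?_)))
      have h5 := h1.1
      have h6 := h1.2.1
      unfold FKA.Cor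
      simp only
      omega
  exact key.1

/-- The event `Hit` with the larger target. -/
theorem hit_of_hc {δ : ℝ} (hδ : 0 < δ) {A B B' : Set ℂ} (hB : ∀ z ∈ B, ∀ z', dist z z' ≤ δ → z' ∈ B')
    {ω : Cfg} {s : Pt} (h0 : pos δ s ∉ A) (h : Hc true ω (Cl δ A) (Cl δ B) s) : ω ∈ Hit δ A B' s := by
  obtain ⟨t, v, ⟨z, hz, hzv⟩, hvt, hp⟩ := h
  refine ⟨h0, t, hB z hz _ (inC_dist hδ hzv (inC_pos hδ hvt)), ?_⟩
  clear hvt
  induction hp with
  | refl => exact ReflTransGen.refl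
  | tail _ hbc ih =>
    refine ih.tail ⟨⟨hbc.1, hbc.2.1, hbc.2.2.1⟩, fun hn => hbc.2.2.2 ⟨_, hn, inC_pos hδ ?_⟩⟩
    have h5 := hbc.1
    have h6 := hbc.2.1
    unfold FKA.Cor
    simp only
    omega

/-! ### the curve -/

section

variable {n : ℕ} {p : ZMod n → ℤ × ℤ} {S : Finset (ℤ × ℤ)} {k : ℕ} {X : Finset (Sym2 (ℤ × ℤ))}

theorem pos_run (i : ℕ) : Cor (sqm (run p k X i)) (H192.ro (run p k X i).1) :=
  cor_ahead _

/-- A curve which visits `B` and does not meet `A` before gives the event. -/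
theorem hit_of_vis (hl : 2 ≤ len p k X) {δ : ℝ} (hδ : 0 < δ) {A A' B B' : Set ℂ}
    (hA : ∀ z ∈ A', ∀ z', dist z z' ≤ δ → z' ∈ A) (hB : ∀ z ∈ B, ∀ z', dist z z' ≤ 4 * δ → z' ∈ B')
    {t : unitInterval} (ht : crv p k δ X t ∈ B) (hs : ∀ s < t, crv p k δ X s ∉ A)
    (hs0 : mid δ (run p k X 0) ∉ A) :
    om p k X ∈ Hit δ A' B' (H192.ro (p (-1))) := by
  obtain ⟨i, hi, hcell⟩ := crv_cell (p := p) (k := k) (w := X) hδ t
  have hM : (t : ℝ) * ((len p k X - 1 : ℕ) : ℝ) ≤ ((len p k X - 1 : ℕ) : ℝ) :=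
    mul_le_of_le_one_left (Nat.cast_nonneg _) t.2.2
  have hil : i < len p k X := by
    have : (i : ℝ) ≤ ((len p k X - 1 : ℕ) : ℝ) := hi.trans hM
    have := Nat.cast_le.1 this
    omega
  -- the midpoints before are not in `A`
  have hmid : ∀ j < i, mid δ (run p k X j) ∉ A := by
    intro j hj
    obtain ⟨s, hs1, hs2⟩ := crv_mid (p := p) (k := k) (w := X) hl δ (i := j) (by omega)
    rw [← hs2]
    refine hs s ?_
    have h1 : (s : ℝ) * ((len p k X - 1 : ℕ) : ℝ) < t * ((len p k X - 1 : ℕ) : ℝ) := by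
      rw [hs1]
      refine lt_of_lt_of_le ?_ hi
      exact_mod_cast hj
    exact Subtype.coe_lt_coe.1 (lt_of_mul_lt_mul_right h1 (Nat.cast_nonneg _))
  -- the site before the last one
  have hpos : ∀ j, mid δ (run p k X j) ∉ A → pos δ (H192.ro (run p k X j).1) ∉ A' := by
    intro j hj hn
    exact hj (hA _ hn _ (inC_dist hδ (inC_pos hδ (cor_ahead _)) (inC_mid hδ _)))
  -- the bank
  have hstep : ∀ j, (H192.ro (run p k X (j + 1)).1 = H192.ro (run p k X j).1) ∨
      PStep (op (om p k X)) (H192.ro (run p k X j).1) (H192.ro (run p k X (j + 1)).1) := by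
    intro j
    have h1 := H476.Q.step_bk (om p k X) (H192.me (run p k X j))
    have h2 : nx (om p k X) (H192.me (run p k X j)) = H192.me (run p k X (j + 1)) := by
      rw [run_succ]
      exact H192.nx_me _ (H192.cfg_hdv _)
    rw [h2] at h1
    have e1 : ∀ l, H476.Q.bk true (H192.me (run p k X l)) = H192.ro (run p k X l).1 :=
      fun l => H192.ls_me _
    cases hc : om p k X (hdv (H192.me (run p k X j)))
    · rw [hc] at h1
      left
      have := h1.2
      simp only [Bool.not_false] at this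
      rw [e1, e1] at this
      exact this
    · rw [hc] at h1
      right
      have := h1.1
      rw [e1, e1] at this
      exact ⟨this.1, this.2.1, by
        have h3 := this.2.2
        rw [Set.mem_singleton_iff] at h3
        show om p k X _ = true
        rw [h3]; exact hc⟩
  have hpath : ∀ j, (∀ l ≤ j, mid δ (run p k X l) ∉ A) →
      ReflTransGen (fun s t => PStep (op (om p k X)) s t ∧ pos δ t ∉ A') (H192.ro (p (-1)))
        (H192.ro (run p k X j).1) := by
    intro j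
    induction j with
    | zero => intro _; exact ReflTransGen.refl
    | succ j ih =>
      intro h
      have h1 := ih fun l hl => h l (by omega)
      rcases hstep j with h2 | h2
      · rw [h2]; exact h1
      · exact h1.tail ⟨h2, hpos _ (h _ le_rfl)⟩
  have hd : ∀ j, dist (pos δ (H192.ro (run p k X j).1)) (mid δ (run p k X j)) ≤ δ := fun j =>
    inC_dist hδ (inC_pos hδ (cor_ahead _)) (inC_mid hδ _)
  -- the last good index
  obtain ⟨j, hj1, hj2⟩ : ∃ j, (∀ l ≤ j, mid δ (run p k X l) ∉ A) ∧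
      dist (crv p k δ X t) (mid δ (run p k X j)) ≤ 3 * δ := by
    have hcase : dist (crv p k δ X t) (mid δ (run p k X i)) ≤ 3 * δ := by
      rcases hcell with h | ⟨-, h⟩
      · have := inC_dist hδ h (inC_mid hδ (run p k X i))
        linarith
      · have h1 := inC_dist hδ h (inC_mid hδ (run p k X (i + 1)))
        have h2 := mid_near (p := p) (k := k) (w := X) hδ i
        have h3 := dist_triangle_right (crv p k δ X t) (mid δ (run p k X i))
          (mid δ (run p k X (i + 1)))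
        linarith
    rcases eq_or_lt_of_le hi with h | h
    · -- the curve is at a midpoint
      rcases Nat.eq_zero_or_pos i with h0 | h0
      · refine ⟨0, fun l hl => ?_, by rw [h0] at hcase; exact hcase⟩
        rw [Nat.le_zero.1 hl]; exact hs0
      · rcases hcell with h1 | ⟨h1, -⟩
        · obtain ⟨l, rfl⟩ : ∃ l, i = l + 1 := ⟨i - 1, by omega⟩
          refine ⟨l, fun l' hl' => hmid l' (by omega), ?_⟩
          have h2 := mid_near (p := p) (k := k) (w := X) hδ l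
          have h3 := inC_dist hδ h1 (inC_mid hδ (run p k X (l + 1)))
          have h4 := dist_triangle_right (crv p k δ X t) (mid δ (run p k X l))
            (mid δ (run p k X (l + 1)))
          linarith
        · linarith
    · refine ⟨i, fun l hli => ?_, hcase⟩
      rcases Nat.lt_or_ge l i with h1 | h1
      · exact hmid l h1
      · obtain rfl : l = i := by omega
        obtain ⟨s, hs1, hs2⟩ := crv_mid (p := p) (k := k) (w := X) hl δ (i := l) (by omega)
        rw [← hs2]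
        refine hs s ?_
        have h1 : (s : ℝ) * ((len p k X - 1 : ℕ) : ℝ) < t * ((len p k X - 1 : ℕ) : ℝ) := by
          rw [hs1]; exact h
        exact Subtype.coe_lt_coe.1 (lt_of_mul_lt_mul_right h1 (Nat.cast_nonneg _))
  refine ⟨?_, H192.ro (run p k X j).1, ?_, hpath j hj1⟩
  · have h1 := hpos 0 hs0
    exact h1
  · refine hB _ ht _ ?_
    have h1 := hd j
    have h2 := dist_triangle_right (crv p k δ X t) (pos δ (H192.ro (run p k X j).1))
      (mid δ (run p k X j))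
    show dist _ (pos δ (H192.ro (run p k X j).1)) ≤ _
    linarith

/-- The curve visits `B'` and does not meet `A` before. -/
theorem vis_of_cells (hl : 2 ≤ len p k X) {δ : ℝ} (hδ : 0 < δ) {A B B' : Set ℂ}
    (hB : ∀ z ∈ B, ∀ z', dist z z' ≤ δ → z' ∈ B') {T : ℕ} (hT : T < len p k X)
    (h1 : sqm (run p k X T) ∈ Cl δ B) (h2 : ∀ i ≤ T, sqm (run p k X i) ∉ Cl δ A) :
    ∃ t : unitInterval, crv p k δ X t ∈ B' ∧ ∀ s ≤ t, crv p k δ X s ∉ A := by
  obtain ⟨t, ht1, ht2⟩ := crv_mid (p := p) (k := k) (w := X) hl δ hT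
  refine ⟨t, ?_, fun s hs hn => ?_⟩
  · rw [ht2]
    obtain ⟨z, hz, hzv⟩ := h1
    exact hB z hz _ (inC_dist hδ hzv (inC_mid hδ _))
  · obtain ⟨i, hi, hcell⟩ := crv_cell (p := p) (k := k) (w := X) hδ s
    have h3 : (s : ℝ) * ((len p k X - 1 : ℕ) : ℝ) ≤ T := by
      rw [← ht1]
      exact mul_le_mul_of_nonneg_right hs (Nat.cast_nonneg _)
    rcases hcell with h | ⟨h4, h⟩
    · exact h2 i (by exact_mod_cast hi.trans h3) ⟨_, hn, h⟩
    · have h5 : (i : ℝ) < T := by linarith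
      have h6 : i < T := by exact_mod_cast h5
      exact h2 (i + 1) (by omega) ⟨_, hn, h⟩

end

/-! ### the shifted domains -/

theorem continuous_shift (Φ : (ℝ × ℝ) ≃ₜ (ℝ × ℝ)) :
    Continuous fun x : ℝ × ℝ => toC (shift Φ x.1 (circ x.2)) := by
  have h1 : Continuous fun x : ℝ × ℝ => ((circ x.2 + (0, x.1) : ℝ × ℝ)) := by
    unfold circ
    fun_prop
  have h2 : Continuous toC := by
    have : toC = fun z : ℝ × ℝ => (z.1 : ℂ) + z.2 * Complex.I := by
      funext z
      apply Complex.ext <;> simp [toC]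
    rw [this]
    fun_prop
  exact h2.comp (Φ.continuous.comp h1)

theorem shift_zero (Φ : (ℝ × ℝ) ≃ₜ (ℝ × ℝ)) (z : ℝ × ℝ) : shift Φ 0 z = Φ z := by
  show Φ (z + (0, 0)) = Φ z
  rw [show z + (0, 0) = z by ext <;> simp]

theorem eventually_off (Φ : (ℝ × ℝ) ≃ₜ (ℝ × ℝ)) {A : Set ℂ} (hA : IsClosed A) {a b : ℝ}
    (h : Disjoint A ((fun t => toC (Φ (circ t))) '' Icc a b)) :
    ∀ᶠ r : ℝ in 𝓝 0, Disjoint A ((fun t => toC (shift Φ r (circ t))) '' Icc a b) := by
  have h1 : ∀ᶠ r : ℝ in 𝓝 0, ∀ t ∈ Icc a b, toC (shift Φ r (circ t)) ∉ A := by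
    refine isCompact_Icc.eventually_forall_of_forall_eventually fun t ht => ?_
    have h2 : toC (shift Φ 0 (circ t)) ∈ Aᶜ := by
      rw [shift_zero]
      exact fun hn => Set.disjoint_left.1 h hn ⟨t, ht, rfl⟩
    have h3 : ∀ᶠ x : ℝ × ℝ in 𝓝 ((0 : ℝ), t), toC (shift Φ x.1 (circ x.2)) ∈ Aᶜ :=
      ((continuous_shift Φ).tendsto ((0 : ℝ), t)).eventually (hA.isOpen_compl.mem_nhds h2)
    exact h3
  filter_upwards [h1] with r hr
  rw [Set.disjoint_left]
  rintro _ hz ⟨t, ht, rfl⟩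
  exact hr t ht hz

theorem eventually_in (Φ : (ℝ × ℝ) ≃ₜ (ℝ × ℝ)) {A : Set ℂ} {t : ℝ}
    (h : toC (Φ (circ t)) ∈ interior A) :
    ∀ᶠ r : ℝ in 𝓝 0, toC (shift Φ r (circ t)) ∈ interior A := by
  have h2 : toC (shift Φ 0 (circ t)) ∈ interior A := by
    rw [shift_zero]
    exact h
  have h3 : ∀ᶠ x : ℝ × ℝ in 𝓝 ((0 : ℝ), t), toC (shift Φ x.1 (circ x.2)) ∈ interior A :=
    ((continuous_shift Φ).tendsto ((0 : ℝ), t)).eventually (isOpen_interior.mem_nhds h2)
  have h4 : Tendsto (fun r : ℝ => ((r, t) : ℝ × ℝ)) (𝓝 0) (𝓝 ((0 : ℝ), t)) :=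
    Continuous.tendsto' (by fun_prop) _ _ rfl
  exact h4.eventually h3

theorem exists_margin {A A' : Set ℂ} (cA : IsCompact A') (h : A' ⊆ interior A) :
    ∃ e : ℝ, 0 < e ∧ ∀ z ∈ A', ∀ z', dist z z' < e → z' ∈ interior A := by
  obtain ⟨e, he, h1⟩ := cA.exists_thickening_subset_open isOpen_interior h
  refine ⟨e, he, fun z hz z' hzz => h1 ?_⟩
  rw [mem_thickening_iff]
  exact ⟨z, hz, by rwa [dist_comm]⟩

/-- **(C1).** -/
theorem s_c1 : S_C1 := by
  intro Φ A B A' B' hAB hAB' hM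
  obtain ⟨hMA, hMB⟩ := hM
  -- the angles
  obtain ⟨_, hA0, t0, ht0, rfl⟩ := hAB'.meetA
  obtain ⟨_, hB1, t1, ht1, rfl⟩ := hAB.meetB
  simp only at hA0 hB1
  have hpi := Real.pi_pos
  have ht0' : t0 ∈ Ioo Real.pi (2 * Real.pi) := by
    refine ⟨lt_of_le_of_ne ht0.1 fun h => ?_, lt_of_le_of_ne ht0.2 fun h => ?_⟩
    · exact Set.disjoint_left.1 hAB'.freeA (interior_subset hA0) ⟨Real.pi, ⟨hpi.le, le_rfl⟩, by
        simp only [h]⟩
    · refine Set.disjoint_left.1 hAB'.freeA (interior_subset hA0) ⟨0, ⟨le_rfl, hpi.le⟩, ?_⟩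
      simp only [h, circ, Real.cos_two_pi, Real.sin_two_pi, Real.cos_zero, Real.sin_zero]
  have ht1' : t1 ∈ Ico 0 Real.pi := by
    refine ⟨ht1.1, lt_of_le_of_ne ht1.2 fun h => ?_⟩
    exact Set.disjoint_left.1 hAB.wirB (interior_subset hB1) ⟨Real.pi, ⟨le_rfl, by linarith⟩, by
      simp only [h]⟩
  have hdis : Disjoint A' B := hAB.disj.mono_left (hMA.trans interior_subset)
  -- the range of the shifts
  have hev := ((eventually_off Φ hAB'.cA.isClosed (a := 0) (b := Real.pi) hAB'.freeA).and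
    (eventually_off Φ hAB.cB.isClosed (a := Real.pi) (b := 2 * Real.pi) hAB.wirB)).and
    ((eventually_in Φ hA0).and (eventually_in Φ hB1))
  obtain ⟨r₀, hr₀, hev⟩ := Metric.eventually_nhds_iff.1 hev
  refine ⟨r₀ / 2, by positivity, fun r hr => ?_⟩
  obtain ⟨⟨k1, k2⟩, k3, k4⟩ := hev (y := r) (by
    rw [Real.dist_eq, sub_zero]; linarith)
  obtain ⟨e1, he1, g1⟩ := c1_dom (shift Φ r) hAB'.cA hAB.cB hAB'.kA hAB.kB hdis k1 k2 ht0' k3 ht1' k4
  obtain ⟨e2, he2, g2⟩ := exists_margin hAB'.cA hMA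
  obtain ⟨e3, he3, g3⟩ := exists_margin hAB.cB hMB
  refine ⟨min e1 (min (e2 / 8) (e3 / 8)), by positivity, fun δ N k p S hC X hX c hc => ?_⟩
  have hC1 : Close (shift Φ r) e1 δ k p S := by
    obtain ⟨a1, a2, s, s1, s2, s3, s4, s5⟩ := hC
    exact ⟨a1, a2.trans_le (min_le_left _ _), s, s1, s2, s3, s4, fun i hi t ht =>
      (s5 i hi t ht).trans_le (min_le_left _ _)⟩
  obtain ⟨⟨hδ, h0, hk, hp, hS⟩, hδε, -⟩ := hC
  have hd2 : δ < e2 / 8 := hδε.trans_le ((min_le_right _ _).trans (min_le_left _ _))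
  have hd3 : δ < e3 / 8 := hδε.trans_le ((min_le_right _ _).trans (min_le_right _ _))
  have hl := two_le_len hp hS hk hX h0
  rw [isInterface_unique hp hS hk hX hc]
  constructor
  · rintro ⟨t, ht, hs⟩
    obtain ⟨s0, hs01, hs02⟩ := crv_mid (p := p) (k := k) (w := X) hl δ (i := 0) (by omega)
    have hs0le : s0 ≤ t := by
      have hM : (0 : ℝ) < ((len p k X - 1 : ℕ) : ℝ) := by
        exact_mod_cast (show 0 < len p k X - 1 by omega)
      have : (s0 : ℝ) = 0 := by
        rcases mul_eq_zero.1 (hs01.trans Nat.cast_zero) with h | h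
        · exact h
        · exact absurd h hM.ne'
      rw [← Subtype.coe_le_coe, this]
      exact t.2.1
    exact hit_of_vis hl hδ (A := A) (A' := A') (B := B) (B' := B')
      (fun z hz z' hzz => interior_subset (g2 z hz z' (by linarith)))
      (fun z hz z' hzz => interior_subset (g3 z hz z' (by linarith)))
      (interior_subset ht) (fun s hst => hs s hst.le) (by
        rw [← hs02]
        exact hs s0 hs0le)
  · intro h
    have h1 := hc_of_hit hδ (A' := A') (fun z hz z' hzz => interior_subset (g2 z hz z' (by linarith))) h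
    obtain ⟨T, hT, hTB, hTA⟩ := g1 δ N k p S hC1 X hX h1
    obtain ⟨t, ht1, ht2⟩ := vis_of_cells hl hδ (B' := B')
      (fun z hz z' hzz => interior_subset (g3 z hz z' (by linarith))) hT hTB hTA
    exact ⟨t, ht1, fun s hs hn => ht2 s hs.le (interior_subset hn)⟩

end Vale.Agent.P167.H714.C1
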