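import Vale.Agent.P167.H476.Q.Flux

/-!
# P167, general `q`, route (C), (C1): the first hitting of two sets by the interface

`Hs ω A B s`: an open path off `A` from the site `s` to a site of a square of `B`.
`hs_of_first`: if the strand of `e0` visits `B` and not `A` before, then `Hs ω A B (ls e0)`.
`first_of_hs`: the converse, if the backward strand of `e0` meets `A` before `B`, the strand is a loop (or it
meets `A ∪ B`) and there is a dual path off `A` from `rs e0` to `B`.
-/

namespace Vale.Agent.P167.H714.C1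

open Vale.Agent.P167 Relation
open Vale.Agent.P145.FB (PStep PConn)
open Vale.Agent.P167.H871 (Pt)
open Vale.Agent.P167.H632 (Ex step_cases diag_eq corners ls_par rs_par)
open Vale.Agent.P167.H318 (dvg dvg_add cnt cnt_nx cnt_pos sg_sq st dvg_path Adj)
open Vale.Agent.P167.FKA (Cor)
open Vale.Agent.P167.H476.Q

/-! ### the plane has no topology -/

/-- Signed sum of `f` from `0` to `x`. -/
noncomputable def ssum (f : ℤ → ℤ) (x : ℤ) : ℤ := ∑ i ∈ Finset.Ico 0 x, f i - ∑ i ∈ Finset.Ico x 0, f i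

theorem ssum_succ (f : ℤ → ℤ) (x : ℤ) : ssum f (x + 1) - ssum f x = f x := by
  unfold ssum
  rcases lt_or_ge x 0 with h | h
  · have h1 : Finset.Ico 0 x = ∅ := Finset.Ico_eq_empty (by omega)
    have h2 : Finset.Ico 0 (x + 1) = ∅ := Finset.Ico_eq_empty (by omega)
    have h3 : Finset.Ico x 0 = insert x (Finset.Ico (x + 1) 0) := by
      ext z
      simp only [Finset.mem_Ico, Finset.mem_insert]
      omega
    rw [h1, h2, h3, Finset.sum_insert (by simp)]
    ring
  · have h1 : Finset.Ico x 0 = ∅ := Finset.Ico_eq_empty (by omega)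
    have h2 : Finset.Ico (x + 1) 0 = ∅ := Finset.Ico_eq_empty (by omega)
    have h3 : Finset.Ico 0 (x + 1) = insert x (Finset.Ico 0 x) := by
      ext z
      simp only [Finset.mem_Ico, Finset.mem_insert]
      omega
    rw [h1, h2, h3, Finset.sum_insert (by simp)]
    ring

theorem ssum_sub (f g : ℤ → ℤ) (x : ℤ) : ssum f x - ssum g x = ssum (fun i => f i - g i) x := by
  unfold ssum
  rw [Finset.sum_sub_distrib, Finset.sum_sub_distrib]
  ring

theorem ssum_tele (f : ℤ → ℤ) (x : ℤ) : ssum (fun i => f (i + 1) - f i) x = f x - f 0 := by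
  induction x using Int.induction_on with
  | zero => simp [ssum]
  | succ n ih =>
    have := ssum_succ (fun i => f (i + 1) - f i) n
    linarith
  | pred n ih =>
    have := ssum_succ (fun i => f (i + 1) - f i) (-n - 1)
    simp only [sub_add_cancel] at this
    linarith

/-- A closed form on the plane has a potential. -/
theorem exists_pot_plane (hx vy : ℤ → ℤ → ℤ)
    (hcl : ∀ x y, hx x y + vy (x + 1) y = vy x y + hx x (y + 1)) :
    ∃ w : ℤ → ℤ → ℤ, (∀ x y, w (x + 1) y - w x y = hx x y) ∧ ∀ x y, w x (y + 1) - w x y = vy x y := by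
  refine ⟨fun x y => ssum (fun i => hx i 0) x + ssum (vy x) y, fun x y => ?_, fun x y => ?_⟩
  · have h1 := ssum_succ (fun i => hx i 0) x
    have h2 := ssum_sub (vy (x + 1)) (vy x) y
    have h3 : (fun i => vy (x + 1) i - vy x i) = fun i => hx x (i + 1) - hx x i := by
      funext i
      have := hcl x i
      linarith
    rw [h3, ssum_tele] at h2
    linarith
  · have h1 := ssum_succ (vy x) y
    linarith

/-- Every balanced flow of the plane has a potential. -/
theorem ex_univ : Ex (Set.univ : Set Pt) := by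
  intro g hg
  obtain ⟨w, h1, h2⟩ := exists_pot_plane (fun x y => -g (Sum.inr (x, y - 1)))
    (fun x y => g (Sum.inl (x - 1, y))) (by
      intro x y
      have := hg (x, y) (Set.mem_univ _)
      simp only at this
      have e1 : x + 1 - 1 = x := by ring
      have e2 : y + 1 - 1 = y := by ring
      rw [e1, e2]
      linarith)
  refine ⟨fun s => w s.1 s.2, ?_⟩
  rintro (⟨x, y⟩ | ⟨x, y⟩) -
  · have h3 := h2 (x + 1) y
    have e1 : x + 1 - 1 = x := by ring
    rw [e1] at h3
    by_cases hp : Even (x + y) <;> simp only [ls, rs, sg, hp, if_true, if_false] <;> linarith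
  · have h3 := h1 x (y + 1)
    have e1 : y + 1 - 1 = y := by ring
    rw [e1] at h3
    by_cases hp : Even (x + y) <;> simp only [ls, rs, sg, hp, if_true, if_false] <;> linarith

/-! ### paths -/

/-- There is a path of colour `c` off `A` from `s` to a site of a square of `B`. -/
def Hc (c : Bool) (ω : Cfg) (A B : Set Pt) (s : Pt) : Prop :=
  ∃ t v, v ∈ B ∧ Cor v t ∧ ReflTransGen (PStep {v | ω v = c ∧ v ∉ A}) s t

theorem pstep_cor {F : Set Pt} {s t : Pt} (h : PStep F s t) :
    ∃ v ∈ F, Cor v s ∧ Cor v t ∧ (s.1 + s.2) % 2 = (t.1 + t.2) % 2 := by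
  obtain ⟨h1, h2, h3⟩ := h
  refine ⟨(min s.1 t.1, min s.2 t.2), h3, ⟨?_, ?_⟩, ⟨?_, ?_⟩, ?_⟩ <;> omega

/-- The bank of the strand. -/
theorem hc_of_first (c : Bool) {ω : Cfg} {A B : Set Pt} {e0 : Ed} {T : ℕ}
    (hA : ∀ i < T, hdv (st e0 ω i) ∉ A) (hB : hdv (st e0 ω T) ∈ B) : Hc c ω A B (bk c e0) := by
  refine ⟨bk c (st e0 ω T), _, hB, co_bk c _, ?_⟩
  clear hB
  induction T with
  | zero => exact ReflTransGen.refl
  | succ T ih =>
    have h1 := ih fun i hi => hA i (by omega)
    have h2 := step_bk ω (st e0 ω T)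
    rw [st_succ]
    by_cases hc : ω (hdv (st e0 ω T)) = c
    · rw [hc] at h2
      refine h1.tail ?_
      obtain ⟨a, b, d⟩ := h2.1
      refine ⟨a, b, ?_⟩
      rw [d]
      exact ⟨hc, hA T (by omega)⟩
    · have hc' : (!ω (hdv (st e0 ω T))) = c := by
        cases hh : ω (hdv (st e0 ω T)) <;> cases c <;> simp_all
      rw [hc'] at h2
      rw [h2.2]
      exact h1

/-- A potential is constant along the paths of one colour through the squares where the flow goes
straight. -/
theorem pot_path {c : Bool} {ω : Cfg} {A : Set Pt} {G : Ed → ℤ} {u : Pt → ℤ} (hu : Pot Set.univ G u)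
    (hT : ∀ v, v ∉ A → Thru ω G v) {s t : Pt} (hs : (s.1 + s.2) % 2 = pr c)
    (h : ReflTransGen (PStep {v | ω v = c ∧ v ∉ A}) s t) : u t = u s ∧ (t.1 + t.2) % 2 = pr c := by
  induction h with
  | refl => exact ⟨rfl, hs⟩
  | tail _ hbc ih =>
    obtain ⟨v, hv, h1, h2, h3⟩ := pstep_cor hbc
    obtain ⟨hvc, hvA⟩ := hv
    refine ⟨?_, by rw [← h3]; exact ih.2⟩
    rw [← ih.1]
    refine hu.cor (Set.mem_univ v) (hT v hvA) h2 h1 ?_ ?_
    · rw [hvc, ← h3]; exact ih.2
    · rw [hvc]; exact ih.2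

/-- Connected by common corners. -/
def CorConn (B : Set Pt) : Prop :=
  ∀ v ∈ B, ∀ v' ∈ B, ReflTransGen (fun v v' => v' ∈ B ∧ ∃ s, Cor v s ∧ Cor v' s) v v'

/-- Connected by common sides. -/
def AdjConn (A : Set Pt) : Prop := ∀ v ∈ A, ∀ v' ∈ A, ReflTransGen (fun a b => Adj a b ∧ b ∈ A) v v'

theorem exists_cor (v : Pt) : Cor v v := ⟨Or.inl rfl, Or.inl rfl⟩

theorem pot_const {G : Ed → ℤ} {u : Pt → ℤ} {B : Set Pt} (hB : CorConn B) (hu : Pot Set.univ G u)
    (h0 : ∀ v ∈ B, ∀ e, (hdv e = v ∨ tlv e = v) → G e = 0) {v v' s s' : Pt} (hv : v ∈ B)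
    (hv' : v' ∈ B) (hs : Cor v s) (hs' : Cor v' s') : u s = u s' := by
  have key : ∀ v', ReflTransGen (fun v v' => v' ∈ B ∧ ∃ s, Cor v s ∧ Cor v' s) v v' →
      v' ∈ B ∧ ∀ s', Cor v' s' → u s = u s' := by
    intro v' h
    induction h with
    | refl => exact ⟨hv, fun s' hs' => hu.sq (Set.mem_univ v) (h0 v hv) hs hs'⟩
    | tail _ hbc ih =>
      obtain ⟨hc, r, h1, h2⟩ := hbc
      refine ⟨hc, fun s' hs' => ?_⟩
      rw [ih.2 r h1]
      exact hu.sq (Set.mem_univ _) (h0 _ hc) h2 hs'
  exact (key v' (hB v hv v' hv')).2 s' hs'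

theorem cnt_nonneg' (e0 : Ed) (ξ : Cfg) (n : ℕ) (e : Ed) : 0 ≤ cnt e0 ξ n e :=
  Finset.sum_nonneg fun i _ => by split_ifs <;> norm_num

theorem one_le_cnt' {e0 : Ed} {ξ : Cfg} {n i : ℕ} (hi : i ≤ n) : 1 ≤ cnt e0 ξ n (st e0 ξ i) := by
  have h := Finset.single_le_sum (f := fun j => if st e0 ξ j = st e0 ξ i then (1 : ℤ) else 0)
    (s := Finset.range (n + 1)) (fun j _ => by split_ifs <;> norm_num)
    (Finset.mem_range.2 (Nat.lt_succ_of_le hi))
  rw [if_pos rfl] at h
  exact h

/-- **(C1), the converse.** `e1` is the edge of the backward strand of `e0` whose tail is the first square of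
`A`; the strand of `e0` meets `A ∪ B`; paths of both colours off `A` from the two banks of `e0` to `B`.
Then the strand visits `B` before `A`. -/
theorem first_of_hc {ω : Cfg} {A B : Set Pt} {e1 : Ed} {m : ℕ} (hA : AdjConn A) (hB : CorConn B)
    (hAB : Disjoint A B) (h1 : tlv e1 ∈ A) (hm : ∀ i < m, hdv (st e1 ω i) ∉ A ∧ hdv (st e1 ω i) ∉ B)
    (h0 : ¬ (tlv (st e1 ω m) ∈ A ∧ hdv (st e1 ω m) ∈ A))
    (hfin : ∃ N, hdv (st (st e1 ω m) ω N) ∈ A ∪ B)
    (hp : Hc true ω A B (ls (st e1 ω m))) (hd : Hc false ω A B (rs (st e1 ω m))) :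
    ∃ T, hdv (st (st e1 ω m) ω T) ∈ B ∧ ∀ i ≤ T, hdv (st (st e1 ω m) ω i) ∉ A := by
  classical
  set e0 : Ed := st e1 ω m with he0
  set T := Nat.find hfin with hT
  have hT1 : hdv (st e0 ω T) ∈ A ∪ B := Nat.find_spec hfin
  have hT2 : ∀ i < T, hdv (st e0 ω i) ∉ A ∪ B := fun i hi => Nat.find_min hfin hi
  have dis : ∀ {v}, v ∈ A → v ∈ B → False := fun ha hb => Set.disjoint_left.1 hAB ha hb
  by_cases hTA : hdv (st e0 ω T) ∈ A
  swap
  · refine ⟨T, hT1.resolve_left hTA, fun i hi => ?_⟩
    rcases lt_or_eq_of_le hi with h | h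
    · exact fun hn => hT2 i h (Or.inl hn)
    · rw [h]; exact hTA
  exfalso
  have hadd : ∀ i, st e0 ω i = st e1 ω (m + i) := fun i => by rw [he0, st_add]
  -- the closed walk
  obtain ⟨-, K, hK1, hK2⟩ := chain_fl hTA (hA _ hTA _ h1)
  set G : Ed → ℤ := fun e => cnt e1 ω (m + T) e + K e with hG
  have hend : st e1 ω (m + T) = st e0 ω T := (hadd T).symm
  obtain ⟨u, hu⟩ := exists_pot (B := Set.univ) (G := G) ex_univ (by
    intro v _
    have e2 : (fun e => sg e * G e) = fun e => sg e * cnt e1 ω (m + T) e + sg e * K e := by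
      funext e
      rw [hG]; ring
    rw [e2, dvg_add, dvg_path, hK2, hend]
    ring)
  -- the strand visits no square of `A ∪ B` in between
  have hno : ∀ i < m + T, hdv (st e1 ω i) ∉ A ∧ hdv (st e1 ω i) ∉ B := by
    intro i hi
    rcases lt_or_ge i m with h | h
    · exact hm i h
    · have h3 := hT2 (i - m) (by omega)
      rw [hadd, show m + (i - m) = i by omega] at h3
      exact ⟨fun hn => h3 (Or.inl hn), fun hn => h3 (Or.inr hn)⟩
  have hThru : ∀ v, v ∉ A → Thru ω G v := by
    intro v hv e he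
    have a1 : K (nx ω e) = 0 := by
      by_contra hne
      have := (hK1 _ hne).2
      rw [tlv_nx, he] at this
      exact hv this
    have a2 : K e = 0 := by
      by_contra hne
      have := (hK1 _ hne).1
      rw [he] at this
      exact hv this
    have a3 : cnt e1 ω (m + T) (nx ω e) = cnt e1 ω (m + T) e := by
      refine cnt_nx ?_ ?_
      · rw [he]
        exact fun hn => hv (hn ▸ h1)
      · rw [he, hend]
        exact fun hn => hv (hn ▸ hTA)
    rw [hG]
    simp only
    rw [a1, a2, a3]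
  have hzero : ∀ v ∈ B, ∀ e, (hdv e = v ∨ tlv e = v) → G e = 0 := by
    intro v hv e he
    have a1 : K e = 0 := by
      by_contra hne
      obtain ⟨b1, b2⟩ := hK1 _ hne
      rcases he with he | he
      · rw [he] at b1; exact dis b1 hv
      · rw [he] at b2; exact dis b2 hv
    have a2 : cnt e1 ω (m + T) e = 0 := by
      by_contra hne
      obtain ⟨i, hi, rfl⟩ := cnt_pos hne
      rcases he with he | he
      · rcases lt_or_eq_of_le hi with h | h
        · exact (hno i h).2 (by rw [he]; exact hv)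
        · rw [h, hend] at he
          exact dis hTA (by rw [he]; exact hv)
      · rcases Nat.eq_zero_or_pos i with h | h
        · rw [h] at he
          exact dis h1 (by rw [show tlv e1 = v from he]; exact hv)
        · obtain ⟨j, rfl⟩ : ∃ j, i = j + 1 := ⟨i - 1, by omega⟩
          rw [tlv_st] at he
          exact (hno j (by omega)).2 (by rw [he]; exact hv)
    rw [hG]
    simp only
    rw [a1, a2, add_zero]
  -- the jump at `e0`
  have hG0 : 1 ≤ G e0 := by
    have a1 : K e0 = 0 := by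
      by_contra hne
      obtain ⟨b1, b2⟩ := hK1 _ hne
      exact h0 ⟨b2, b1⟩
    have a2 : 1 ≤ cnt e1 ω (m + T) e0 := one_le_cnt' (by omega)
    rw [hG]
    simp only
    rw [a1, add_zero]
    exact a2
  have hjump := hu e0 (Or.inl (Set.mem_univ _))
  obtain ⟨t, v, hv, hvt, hpt⟩ := hp
  obtain ⟨t', v', hv', hvt', hpt'⟩ := hd
  have b1 := (pot_path hu hThru (s := ls e0) (c := true) (ls_par e0) hpt).1
  have b2 := (pot_path hu hThru (s := rs e0) (c := false) (rs_par e0) hpt').1
  have b3 := pot_const hB hu hzero hv hv' hvt hvt'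
  omega

end Vale.Agent.P167.H714.C1
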