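import Vale.Agent.P167.H714.C1.Poly
import Mathlib.Analysis.Complex.Basic

/-!
# P167, general `q`, route (C), (C1): the closed cells which meet a set

`InC δ v z`: the point `z` is in the closed cell (square `v` of the squares lattice in mesh `δ`).
`Cl δ X`: the squares whose cells meet `X`. For a connected `X` these are connected by common sides.
-/

set_option autoImplicit false

open Set Metric Topology Filter

namespace Vale.Agent.P167.H714.C1

open Vale.Agent.P167 Relation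
open Vale.Agent.P167.E6
open Vale.Agent.P167.H871 (Pt)
open Vale.Agent.P167.H318 (Adj)
open Vale.Agent.P167.FKA (Cor)

/-- The point `z` is in the closed cell of the square `v`. -/
def InC (δ : ℝ) (v : Pt) (z : ℂ) : Prop :=
  (v.1 : ℝ) ≤ (z.re - z.im) / δ ∧ (z.re - z.im) / δ ≤ v.1 + 1 ∧
    (v.2 : ℝ) ≤ (z.re + z.im) / δ ∧ (z.re + z.im) / δ ≤ v.2 + 1

/-- The squares whose cells meet `X`. -/
def Cl (δ : ℝ) (X : Set ℂ) : Set Pt := {v | ∃ z ∈ X, InC δ v z}

theorem Cl_mono (δ : ℝ) {X Y : Set ℂ} (h : X ⊆ Y) : Cl δ X ⊆ Cl δ Y :=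
  fun _ ⟨z, hz, hv⟩ => ⟨z, h hz, hv⟩

theorem inC_floor (δ : ℝ) (z : ℂ) :
    InC δ (⌊(z.re - z.im) / δ⌋, ⌊(z.re + z.im) / δ⌋) z :=
  ⟨Int.floor_le _, (Int.lt_floor_add_one _).le, Int.floor_le _, (Int.lt_floor_add_one _).le⟩

theorem inC_dist {δ : ℝ} (hδ : 0 < δ) {v : Pt} {z z' : ℂ} (h : InC δ v z) (h' : InC δ v z') :
    dist z z' ≤ δ := by
  obtain ⟨h1, h2, h3, h4⟩ := h
  obtain ⟨g1, g2, g3, g4⟩ := h'
  set a := (z.re - z.im) / δ with ha
  set b := (z.re + z.im) / δ with hb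
  set a' := (z'.re - z'.im) / δ with ha'
  set b' := (z'.re + z'.im) / δ with hb'
  have e1 : z.re - z.im = a * δ := by rw [ha]; field_simp
  have e2 : z.re + z.im = b * δ := by rw [hb]; field_simp
  have e3 : z'.re - z'.im = a' * δ := by rw [ha']; field_simp
  have e4 : z'.re + z'.im = b' * δ := by rw [hb']; field_simp
  rw [dist_eq_norm, ← abs_of_pos hδ, ← Real.sqrt_sq_eq_abs, Complex.norm_eq_sqrt_sq_add_sq]
  refine Real.sqrt_le_sqrt ?_
  have k1 : (a - a') ^ 2 ≤ 1 := by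
    rw [sq_le_one_iff_abs_le_one, abs_le]; constructor <;> linarith
  have k2 : (b - b') ^ 2 ≤ 1 := by
    rw [sq_le_one_iff_abs_le_one, abs_le]; constructor <;> linarith
  have k3 : 2 * ((z - z').re ^ 2 + (z - z').im ^ 2) = ((a - a') ^ 2 + (b - b') ^ 2) * δ ^ 2 := by
    rw [Complex.sub_re, Complex.sub_im]
    have : (z.re - z'.re) = ((a - a') + (b - b')) * δ / 2 := by linear_combination (e1 + e2 - e3 - e4) / 2
    have h5 : (z.im - z'.im) = ((b - b') - (a - a')) * δ / 2 := by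
      linear_combination (e2 - e1 - e4 + e3) / 2
    rw [this, h5]
    ring
  nlinarith [sq_nonneg δ, mul_le_mul_of_nonneg_right (add_le_add k1 k2) (sq_nonneg δ)]

theorem continuous_g1 (δ : ℝ) : Continuous fun z : ℂ => (z.re - z.im) / δ :=
  (Complex.continuous_re.sub Complex.continuous_im).div_const δ

theorem continuous_g2 (δ : ℝ) : Continuous fun z : ℂ => (z.re + z.im) / δ :=
  (Complex.continuous_re.add Complex.continuous_im).div_const δ

theorem isClosed_cell (δ : ℝ) (v : Pt) : IsClosed {z | InC δ v z} := by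
  have h1 : IsClosed {z : ℂ | (v.1 : ℝ) ≤ (z.re - z.im) / δ} :=
    isClosed_le continuous_const (continuous_g1 δ)
  have h2 : IsClosed {z : ℂ | (z.re - z.im) / δ ≤ v.1 + 1} :=
    isClosed_le (continuous_g1 δ) continuous_const
  have h3 : IsClosed {z : ℂ | (v.2 : ℝ) ≤ (z.re + z.im) / δ} :=
    isClosed_le continuous_const (continuous_g2 δ)
  have h4 : IsClosed {z : ℂ | (z.re + z.im) / δ ≤ v.2 + 1} :=
    isClosed_le (continuous_g2 δ) continuous_const
  exact h1.inter (h2.inter (h3.inter h4))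

/-- The cells are locally finite. -/
theorem isClosed_cells (δ : ℝ) (P : Set Pt) : IsClosed {z | ∃ v ∈ P, InC δ v z} := by
  have hlf : LocallyFinite fun v : P => {z | InC δ v.1 z} := by
    intro z
    set a := (z.re - z.im) / δ with ha
    set b := (z.re + z.im) / δ with hb
    refine ⟨{w : ℂ | (w.re - w.im) / δ ∈ Ioo (a - 1) (a + 1)} ∩
      {w : ℂ | (w.re + w.im) / δ ∈ Ioo (b - 1) (b + 1)}, ?_, ?_⟩
    · refine Filter.inter_mem ?_ ?_
      · exact (isOpen_Ioo.preimage (continuous_g1 δ)).mem_nhds (by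
          show (z.re - z.im) / δ ∈ Ioo (a - 1) (a + 1)
          rw [← ha]; constructor <;> linarith)
      · exact (isOpen_Ioo.preimage (continuous_g2 δ)).mem_nhds (by
          show (z.re + z.im) / δ ∈ Ioo (b - 1) (b + 1)
          rw [← hb]; constructor <;> linarith)
    · have hfin : (Set.Icc (⌊a⌋ - 3) (⌊a⌋ + 3) ×ˢ Set.Icc (⌊b⌋ - 3) (⌊b⌋ + 3) : Set Pt).Finite :=
        (Set.finite_Icc _ _).prod (Set.finite_Icc _ _)
      refine Set.Finite.subset (hfin.preimage (f := fun v : P => (v : Pt))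
        Subtype.val_injective.injOn) ?_
      rintro ⟨v, hv⟩ ⟨w, hw, hw1, hw2⟩
      obtain ⟨c1, c2, c3, c4⟩ := hw
      obtain ⟨d1, d2⟩ := hw1
      obtain ⟨d3, d4⟩ := hw2
      simp only at c1 c2 c3 c4
      have f1 := Int.floor_le a
      have f2 := Int.lt_floor_add_one a
      have f3 := Int.floor_le b
      have f4 := Int.lt_floor_add_one b
      have i1 : ((⌊a⌋ - 3 : ℤ) : ℝ) < v.1 := by push_cast; linarith
      have i2 : (v.1 : ℝ) < ((⌊a⌋ + 3 : ℤ) : ℝ) := by push_cast; linarith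
      have i3 : ((⌊b⌋ - 3 : ℤ) : ℝ) < v.2 := by push_cast; linarith
      have i4 : (v.2 : ℝ) < ((⌊b⌋ + 3 : ℤ) : ℝ) := by push_cast; linarith
      have j1 := Int.cast_lt.1 i1
      have j2 := Int.cast_lt.1 i2
      have j3 := Int.cast_lt.1 i3
      have j4 := Int.cast_lt.1 i4
      exact ⟨⟨j1.le, j2.le⟩, ⟨j3.le, j4.le⟩⟩
  have h := hlf.isClosed_iUnion fun v => isClosed_cell δ v.1
  convert h using 1
  ext z
  simp only [mem_ofPred_eq, mem_iUnion, Subtype.exists, exists_prop]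

/-- Two cells with a common point of `X` are connected in `Cl δ X`. -/
theorem adj_of_common {δ : ℝ} {X : Set ℂ} {v v' : Pt} {z : ℂ} (hz : z ∈ X) (h : InC δ v z)
    (h' : InC δ v' z) : ReflTransGen (fun a b => Adj a b ∧ b ∈ Cl δ X) v v' := by
  obtain ⟨h1, h2, h3, h4⟩ := h
  obtain ⟨g1, g2, g3, g4⟩ := h'
  have c1 : (v.1 : ℝ) ≤ v'.1 + 1 := by linarith
  have c2 : (v'.1 : ℝ) ≤ v.1 + 1 := by linarith
  have c3 : (v.2 : ℝ) ≤ v'.2 + 1 := by linarith
  have c4 : (v'.2 : ℝ) ≤ v.2 + 1 := by linarith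
  have c1' : v.1 ≤ v'.1 + 1 := by exact_mod_cast c1
  have c2' : v'.1 ≤ v.1 + 1 := by exact_mod_cast c2
  have c3' : v.2 ≤ v'.2 + 1 := by exact_mod_cast c3
  have c4' : v'.2 ≤ v.2 + 1 := by exact_mod_cast c4
  obtain ⟨a, b⟩ := v
  obtain ⟨a', b'⟩ := v'
  simp only at c1' c2' c3' c4' h1 h2 h3 h4 g1 g2 g3 g4
  have s1 : ReflTransGen (fun a b => Adj a b ∧ b ∈ Cl δ X) ((a, b) : Pt) ((a', b) : Pt) := by
    by_cases h : a = a'
    · rw [h]
    · refine ReflTransGen.single ⟨Or.inr ⟨rfl, ?_⟩, z, hz, g1, g2, h3, h4⟩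
      simp only
      omega
  have s2 : ReflTransGen (fun a b => Adj a b ∧ b ∈ Cl δ X) ((a', b) : Pt) ((a', b') : Pt) := by
    by_cases h : b = b'
    · rw [h]
    · refine ReflTransGen.single ⟨Or.inl ⟨rfl, ?_⟩, z, hz, g1, g2, g3, g4⟩
      simp only
      omega
  exact s1.trans s2

/-- **The cells which meet a connected set are connected by common sides.** -/
theorem adjConn_Cl (δ : ℝ) {X : Set ℂ} (hX : IsPreconnected X) : AdjConn (Cl δ X) := by
  rintro v0 ⟨z0, hz0, hv0⟩ v1 ⟨z1, hz1, hv1⟩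
  by_contra hne
  set P : Set Pt := {v | ReflTransGen (fun a b => Adj a b ∧ b ∈ Cl δ X) v0 v} with hP
  have h := isPreconnected_closed_iff.1 hX {z | ∃ v ∈ P, InC δ v z}
    {z | ∃ v ∈ Cl δ X \ P, InC δ v z} (isClosed_cells δ P) (isClosed_cells δ _) (by
      intro z hz
      have h1 := inC_floor δ z
      by_cases h2 : (⌊(z.re - z.im) / δ⌋, ⌊(z.re + z.im) / δ⌋) ∈ P
      · exact Or.inl ⟨_, h2, h1⟩
      · exact Or.inr ⟨_, ⟨⟨z, hz, h1⟩, h2⟩, h1⟩)
    ⟨z0, hz0, v0, ReflTransGen.refl, hv0⟩ ⟨z1, hz1, v1, ⟨⟨z1, hz1, hv1⟩, hne⟩, hv1⟩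
  obtain ⟨z, hz, ⟨v, hv, hvz⟩, ⟨v', ⟨-, hv'⟩, hvz'⟩⟩ := h
  exact hv' (ReflTransGen.trans hv (adj_of_common hz hvz hvz'))

theorem adj_cor {a b : Pt} (h : Adj a b) : ∃ s, Cor a s ∧ Cor b s := by
  obtain ⟨a1, a2⟩ := a
  obtain ⟨b1, b2⟩ := b
  simp only [Adj] at h
  refine ⟨(max a1 b1, max a2 b2), ⟨?_, ?_⟩, ⟨?_, ?_⟩⟩ <;> simp only <;> omega

theorem AdjConn.cor {A : Set Pt} (h : AdjConn A) : CorConn A := fun v hv v' hv' =>
  ReflTransGen.mono (r := fun a b => Adj a b ∧ b ∈ A)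
    (p := fun v v' => v' ∈ A ∧ ∃ s, Cor v s ∧ Cor v' s) (fun _ _ hab => ⟨hab.2, adj_cor hab.1⟩)
    v v' (h v hv v' hv')

theorem corConn_Cl (δ : ℝ) {X : Set ℂ} (hX : IsPreconnected X) : CorConn (Cl δ X) :=
  (adjConn_Cl δ hX).cor

/-- Sets at distance more than `δ` have disjoint sets of cells. -/
theorem disjoint_Cl {δ : ℝ} (hδ : 0 < δ) {X Y : Set ℂ} (h : ∀ x ∈ X, ∀ y ∈ Y, δ < dist x y) :
    Disjoint (Cl δ X) (Cl δ Y) := by
  rw [Set.disjoint_left]
  rintro v ⟨z, hz, hv⟩ ⟨z', hz', hv'⟩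
  exact absurd (inC_dist hδ hv hv') (not_le.2 (h z hz z' hz'))

/-- The position of a site. -/
noncomputable def pos (δ : ℝ) (s : Pt) : ℂ :=
  (δ : ℂ) * ⟨((s.1 + s.2 : ℤ) : ℝ) / 2, ((s.2 - s.1 : ℤ) : ℝ) / 2⟩

theorem pos_re (δ : ℝ) (s : Pt) : (pos δ s).re = δ * ((s.1 + s.2) / 2) := by
  simp [pos]

theorem pos_im (δ : ℝ) (s : Pt) : (pos δ s).im = δ * ((s.2 - s.1) / 2) := by
  simp [pos]

/-- The corners are in the cell. -/
theorem inC_pos {δ : ℝ} (hδ : 0 < δ) {v s : Pt} (h : Cor v s) : InC δ v (pos δ s) := by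
  have e1 : ((pos δ s).re - (pos δ s).im) / δ = s.1 := by
    rw [pos_re, pos_im]; field_simp; ring
  have e2 : ((pos δ s).re + (pos δ s).im) / δ = s.2 := by
    rw [pos_re, pos_im]; field_simp; ring
  unfold InC
  rw [e1, e2]
  obtain ⟨h1, h2⟩ := h
  refine ⟨?_, ?_, ?_, ?_⟩
  · exact_mod_cast (show v.1 ≤ s.1 by omega)
  · exact_mod_cast (show s.1 ≤ v.1 + 1 by omega)
  · exact_mod_cast (show v.2 ≤ s.2 by omega)
  · exact_mod_cast (show s.2 ≤ v.2 + 1 by omega)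

theorem pos_ro (δ : ℝ) (u : ℤ × ℤ) : pos δ (H192.ro u) = (δ : ℂ) * pt u := by
  unfold pos
  congr 1
  apply Complex.ext
  · simp only [H192.ro, pt]; push_cast; ring
  · simp only [H192.ro, pt]; push_cast; ring

end Vale.Agent.P167.H714.C1
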