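import Vale.Agent.P167.H714.C1.Cl
import Vale.Agent.P167.E2.Intf

/-!
# P167, general `q`, route (C), (C1): the interface as a curve and the cells of its squares
-/

set_option autoImplicit false

open Set Metric Topology Filter

namespace Vale.Agent.P167.H714.C1

open Vale.Agent.P167 Relation
open Vale.Agent.P167.E6 Vale.Agent.P167.E2
open Vale.Agent.P145.FB (PStep)
open Vale.Agent.P167.H871 (Pt)
open Vale.Agent.P167.H318 (Adj)
open Vale.Agent.P167.FKA (Cor)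

/-- The square of a medial edge. -/
def sqm (c : Medial) : Pt := hdv (H192.me c)

theorem mid_g (δ : ℝ) (c : Medial) :
    (mid δ c).re - (mid δ c).im = δ * ((sqm c).1 + 1 / 2) ∧
      (mid δ c).re + (mid δ c).im = δ * ((sqm c).2 + 1 / 2) := by
  obtain ⟨h1, h2⟩ := H192.ro_dir c.1 (c.2 + 1)
  have h3 : sqm c = (min (H192.ro c.1).1 (H192.ro (c.1 + dir (c.2 + 1))).1,
      min (H192.ro c.1).2 (H192.ro (c.1 + dir (c.2 + 1))).2) := by
    unfold sqm
    rw [H192.hdv_me]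
    exact H192.sq_dir _ _
  have e1 : ((2 * (sqm c).1 + 1 : ℤ) : ℝ) =
      (((H192.ro c.1).1 + (H192.ro (c.1 + dir (c.2 + 1))).1 : ℤ) : ℝ) := by
    rw [h3]
    congr 1
    simp only
    omega
  have e2 : ((2 * (sqm c).2 + 1 : ℤ) : ℝ) =
      (((H192.ro c.1).2 + (H192.ro (c.1 + dir (c.2 + 1))).2 : ℤ) : ℝ) := by
    rw [h3]
    congr 1
    simp only
    omega
  simp only [H192.ro] at e1 e2
  push_cast at e1 e2
  have hre : (mid δ c).re = δ * (c.1.1 + (c.1 + dir (c.2 + 1)).1) / 2 := by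
    simp [mid, pt]
  have him : (mid δ c).im = δ * (c.1.2 + (c.1 + dir (c.2 + 1)).2) / 2 := by
    simp [mid, pt]
  rw [hre, him]
  simp only [Prod.fst_add, Prod.snd_add] at e1 e2 ⊢
  push_cast at e1 e2 ⊢
  constructor
  · linear_combination (-δ / 2) * e1
  · linear_combination (-δ / 2) * e2

theorem inC_mid {δ : ℝ} (hδ : 0 < δ) (c : Medial) : InC δ (sqm c) (mid δ c) := by
  obtain ⟨h1, h2⟩ := mid_g δ c
  unfold InC
  rw [h1, h2, mul_div_cancel_left₀ _ hδ.ne', mul_div_cancel_left₀ _ hδ.ne']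
  refine ⟨?_, ?_, ?_, ?_⟩ <;> linarith

/-- Consecutive squares are side by side. -/
theorem sqm_next (O : Set (Sym2 (ℤ × ℤ))) (c : Medial) :
    |(sqm c).1 - (sqm (next O c)).1| + |(sqm c).2 - (sqm (next O c)).2| = 1 := by
  have h1 : H192.me (next O c) = nx (H192.cfg O) (H192.me c) := (H192.nx_cfg O c).symm
  have h2 := tlv_adj (H192.me (next O c))
  have h3 : tlv (H192.me (next O c)) = sqm c := by rw [h1, tlv_nx]; rfl
  rw [h3] at h2
  exact h2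

/-- The part of the curve between two midpoints is in the two cells. -/
theorem inC_seg {δ : ℝ} (hδ : 0 < δ) (O : Set (Sym2 (ℤ × ℤ))) (c : Medial) {τ : ℝ} (h0 : 0 ≤ τ)
    (h1 : τ ≤ 1) : (τ ≤ 1 / 2 ∧ InC δ (sqm c) (mid δ c + τ * (mid δ (next O c) - mid δ c))) ∨
      (0 < τ ∧ InC δ (sqm (next O c)) (mid δ c + τ * (mid δ (next O c) - mid δ c))) := by
  obtain ⟨a1, a2⟩ := mid_g δ c
  obtain ⟨b1, b2⟩ := mid_g δ (next O c)
  have hz := sqm_next O c
  set v := sqm c with hv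
  set v' := sqm (next O c) with hv'
  set z := mid δ c + τ * (mid δ (next O c) - mid δ c) with hzd
  have g1 : (z.re - z.im) / δ = v.1 + 1 / 2 + τ * (v'.1 - v.1) := by
    rw [div_eq_iff hδ.ne']
    have e1 : z.re = (mid δ c).re + τ * ((mid δ (next O c)).re - (mid δ c).re) := by
      simp [hzd]
    have e2 : z.im = (mid δ c).im + τ * ((mid δ (next O c)).im - (mid δ c).im) := by
      simp [hzd]
    rw [e1, e2]
    linear_combination (1 - τ) * a1 + τ * b1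
  have g2 : (z.re + z.im) / δ = v.2 + 1 / 2 + τ * (v'.2 - v.2) := by
    rw [div_eq_iff hδ.ne']
    have e1 : z.re = (mid δ c).re + τ * ((mid δ (next O c)).re - (mid δ c).re) := by
      simp [hzd]
    have e2 : z.im = (mid δ c).im + τ * ((mid δ (next O c)).im - (mid δ c).im) := by
      simp [hzd]
    rw [e1, e2]
    linear_combination (1 - τ) * a2 + τ * b2
  have hcase : (v'.1 = v.1 ∧ (v'.2 = v.2 + 1 ∨ v'.2 = v.2 - 1)) ∨
      (v'.2 = v.2 ∧ (v'.1 = v.1 + 1 ∨ v'.1 = v.1 - 1)) := by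
    rcases abs_cases (v.1 - v'.1) with ⟨k1, _⟩ | ⟨k1, _⟩ <;>
      rcases abs_cases (v.2 - v'.2) with ⟨k2, _⟩ | ⟨k2, _⟩ <;> omega
  rcases le_or_gt τ (1 / 2) with ht | ht
  · left
    refine ⟨ht, ?_⟩
    unfold InC
    rw [g1, g2]
    rcases hcase with ⟨k1, k2 | k2⟩ | ⟨k1, k2 | k2⟩ <;> rw [k1, k2] <;> push_cast <;>
      refine ⟨?_, ?_, ?_, ?_⟩ <;> linarith
  · right
    refine ⟨by linarith, ?_⟩
    unfold InC
    rw [g1, g2]
    rcases hcase with ⟨k1, k2 | k2⟩ | ⟨k1, k2 | k2⟩ <;> rw [k1, k2] <;> push_cast <;>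
      refine ⟨?_, ?_, ?_, ?_⟩ <;> linarith

variable {n : ℕ} {p : ZMod n → ℤ × ℤ} {S : Finset (ℤ × ℤ)} {k : ℕ} {w : Finset (Sym2 (ℤ × ℤ))}

theorem crv_apply (δ : ℝ) (t : unitInterval) : crv p k δ w t =
    mid δ (run p k w ⌊(t : ℝ) * ((len p k w - 1 : ℕ) : ℝ)⌋₊) +
      ((t : ℝ) * ((len p k w - 1 : ℕ) : ℝ) - ⌊(t : ℝ) * ((len p k w - 1 : ℕ) : ℝ)⌋₊ : ℝ) *
      (mid δ (run p k w (⌊(t : ℝ) * ((len p k w - 1 : ℕ) : ℝ)⌋₊ + 1)) -
        mid δ (run p k w ⌊(t : ℝ) * ((len p k w - 1 : ℕ) : ℝ)⌋₊)) := rfl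

/-- The position of the curve. -/
theorem crv_cell {δ : ℝ} (hδ : 0 < δ) (t : unitInterval) :
    ∃ i : ℕ, (i : ℝ) ≤ t * ((len p k w - 1 : ℕ) : ℝ) ∧ (InC δ (sqm (run p k w i)) (crv p k δ w t) ∨
      ((i : ℝ) < t * ((len p k w - 1 : ℕ) : ℝ) ∧ InC δ (sqm (run p k w (i + 1))) (crv p k δ w t))) := by
  set M : ℝ := ((len p k w - 1 : ℕ) : ℝ) with hM
  have h0 : 0 ≤ (t : ℝ) * M := mul_nonneg t.2.1 (Nat.cast_nonneg _)
  have h1 := Nat.floor_le h0
  have h2 := Nat.lt_floor_add_one ((t : ℝ) * M)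
  refine ⟨⌊(t : ℝ) * M⌋₊, h1, ?_⟩
  have h3 := inC_seg hδ (wiredOpen p k w) (run p k w ⌊(t : ℝ) * M⌋₊)
    (τ := (t : ℝ) * M - ⌊(t : ℝ) * M⌋₊) (by linarith) (by linarith)
  rw [← run_succ] at h3
  have e : crv p k δ w t = mid δ (run p k w ⌊(t : ℝ) * M⌋₊) +
      (((t : ℝ) * M - ⌊(t : ℝ) * M⌋₊ : ℝ) : ℂ) * (mid δ (run p k w (⌊(t : ℝ) * M⌋₊ + 1)) -
        mid δ (run p k w ⌊(t : ℝ) * M⌋₊)) := by
    rw [crv_apply]
  rw [e]
  rcases h3 with ⟨-, h⟩ | ⟨h, h'⟩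
  · left
    exact h
  · right
    exact ⟨by linarith, h'⟩

/-- The times of the midpoints. -/
theorem crv_mid (hl : 2 ≤ len p k w) (δ : ℝ) {i : ℕ} (hi : i < len p k w) :
    ∃ t : unitInterval, (t : ℝ) * ((len p k w - 1 : ℕ) : ℝ) = i ∧
      crv p k δ w t = mid δ (run p k w i) := by
  have hM : (0 : ℝ) < ((len p k w - 1 : ℕ) : ℝ) := by
    exact_mod_cast (show 0 < len p k w - 1 by omega)
  have hi' : (i : ℝ) ≤ ((len p k w - 1 : ℕ) : ℝ) := by exact_mod_cast (show i ≤ len p k w - 1 by omega)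
  refine ⟨⟨(i : ℝ) / ((len p k w - 1 : ℕ) : ℝ), by positivity, (div_le_one hM).2 hi'⟩, ?_, ?_⟩
  · exact div_mul_cancel₀ _ hM.ne'
  · rw [crv_apply]
    simp only
    rw [div_mul_cancel₀ _ hM.ne', Nat.floor_natCast, sub_self]
    simp

/-- Consecutive midpoints are near. -/
theorem mid_near {δ : ℝ} (hδ : 0 < δ) (i : ℕ) :
    dist (mid δ (run p k w i)) (mid δ (run p k w (i + 1))) ≤ 2 * δ := by
  have h1 := inC_mid hδ (run p k w i)
  have h2 := inC_mid hδ (run p k w (i + 1))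
  have h3 := inC_seg hδ (wiredOpen p k w) (run p k w i) (τ := 1 / 2) (by norm_num) (by norm_num)
  rw [← run_succ] at h3
  set a := mid δ (run p k w i)
  set b := mid δ (run p k w (i + 1))
  have key : dist a b = 2 * dist a (a + ((1 / 2 : ℝ) : ℂ) * (b - a)) := by
    rw [dist_eq_norm, dist_eq_norm]
    have : a - (a + ((1 / 2 : ℝ) : ℂ) * (b - a)) = ((1 / 2 : ℝ) : ℂ) * (a - b) := by ring
    rw [this, norm_mul, Complex.norm_real]
    norm_num
    ring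
  have key2 : dist a b = 2 * dist b (a + ((1 / 2 : ℝ) : ℂ) * (b - a)) := by
    rw [dist_eq_norm, dist_eq_norm]
    have : b - (a + ((1 / 2 : ℝ) : ℂ) * (b - a)) = ((1 / 2 : ℝ) : ℂ) * (b - a) := by
      push_cast; ring
    rw [this, norm_mul, Complex.norm_real, norm_sub_rev]
    norm_num
    ring
  rcases h3 with ⟨-, h⟩ | ⟨-, h⟩
  · rw [key]
    have := inC_dist hδ h1 h
    linarith
  · rw [key2]
    have := inC_dist hδ h2 h
    linarith

end Vale.Agent.P167.H714.C1
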