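import Vale.Agent.P167.H714.C1.Curve
import Vale.Agent.P167.H199.C.CDefs

/-!
# P167, general `q`, route (C), (C1): the hypotheses of the lattice lemma near a marked domain
-/

set_option autoImplicit false

open Set Metric Topology Filter

namespace Vale.Agent.P167.H714.C1

open Vale.Agent.P167 Relation
open Vale.Agent.P167.E6 Vale.Agent.P167.E2
open Vale.Agent.P145.FB (PStep)
open Vale.Agent.P167.H871 (Pt)
open Vale.Agent.P167.FKA (Cor)
open Vale.Agent.P153.R2.Final (dom circ toC IsUniformizer)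
open Vale.Agent.P167.H199.C (Close fArc wArc)
open Vale.Agent.P167.QC (om)

theorem exists_index {s : ℕ → ℝ} {N : ℕ} {t : ℝ} (h0 : s 0 ≤ t) (hN : t < s N) :
    ∃ i < N, s i ≤ t ∧ t < s (i + 1) := by
  classical
  have h : ∃ j, t < s j := ⟨N, hN⟩
  have h1 := Nat.find_spec h
  have h2 : Nat.find h ≠ 0 := by
    intro h3
    rw [h3] at h1
    linarith
  obtain ⟨i, hi⟩ : ∃ i, Nat.find h = i + 1 := ⟨Nat.find h - 1, by omega⟩
  have h4 : Nat.find h ≤ N := Nat.find_min' h hN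
  refine ⟨i, by omega, ?_, by rw [← hi]; exact h1⟩
  have := Nat.find_min h (m := i) (by omega)
  exact not_lt.1 this

section

variable {n : ℕ} {p : ZMod n → ℤ × ℤ} {S : Finset (ℤ × ℤ)} {k : ℕ}

theorem cor_sq (hp : IsPolygon p) (i : ZMod n) :
    Cor (H192.sq s(p i, p (i + 1))) (H192.ro (p i)) := by
  rw [ro_spec hp i]
  obtain ⟨h1, h2⟩ := H161.sq_near (p i) (E2.ro p i)
  unfold FKA.Cor
  omega

theorem cor_sq_face (hp : IsPolygon p) (i : ZMod n) :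
    Cor (H192.sq s(p i, p (i + 1))) (H192.rf (face (p i) (E2.ro p i - 1))) := by
  obtain ⟨⟨h1, h2⟩, h3⟩ := H161.face_key (p i) (E2.ro p i - 1)
  have e : E2.ro p i - 1 + 1 = E2.ro p i := by
    generalize E2.ro p i = r
    revert r
    decide
  rw [e, ← ro_spec hp i] at h3
  rw [e] at h1 h2
  rw [← h3]
  unfold FKA.Cor
  simp only
  omega

variable {Ψ : (ℝ × ℝ) ≃ₜ (ℝ × ℝ)} {ε δ : ℝ} {A B : Set ℂ}

theorem wired_hit (h : Close Ψ ε δ k p S) {t0 : ℝ} (h1 : Real.pi ≤ t0) (h2 : t0 < 2 * Real.pi)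
    (hsep : 2 * ε ≤ dist (toC (Ψ (circ t0))) (toC (Ψ (circ (2 * Real.pi)))))
    (hb : ball (toC (Ψ (circ t0))) ε ⊆ A) :
    ∃ i : ℕ, k ≤ i ∧ i + 1 < n ∧ H192.sq s(p i, p (i + 1)) ∈ Cl δ A := by
  obtain ⟨⟨hδ, h0, hk, hp, hS⟩, hδε, s, s1, s2, s3, s4, s5⟩ := h
  have hpi := Real.pi_pos
  obtain ⟨i, hi, hi1, hi2⟩ := exists_index (s := s) (N := n) (t := t0) (by rw [s2]; linarith)
    (by rw [s4]; exact h2)
  have hd := s5 i hi t0 ⟨hi1, hi2.le⟩
  refine ⟨i, ?_, ?_, δ * pt (p i), hb (mem_ball.2 hd), ?_⟩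
  · by_contra hn
    have : s (i + 1) ≤ s k := s1 (by omega)
    rw [s3] at this
    linarith
  · by_contra hn
    have hin : i + 1 = n := by omega
    have hd2 := s5 i hi (2 * Real.pi) ⟨by
      rw [← s4]
      exact s1 (by omega), by rw [hin, s4]⟩
    have := dist_triangle_left (toC (Ψ (circ t0))) (toC (Ψ (circ (2 * Real.pi)))) (δ * pt (p i))
    linarith
  · rw [← pos_ro]
    exact inC_pos hδ (cor_sq hp i)

theorem free_hit (h : Close Ψ ε δ k p S) {t0 : ℝ} (h1 : 0 ≤ t0) (h2 : t0 < Real.pi)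
    (hb : ball (toC (Ψ (circ t0))) ε ⊆ B) :
    ∃ j : ℕ, j < k ∧ ∃ v ∈ Cl δ B, Cor v (H192.rf (face (p j) (E2.ro p j - 1))) := by
  obtain ⟨⟨hδ, h0, hk, hp, hS⟩, hδε, s, s1, s2, s3, s4, s5⟩ := h
  obtain ⟨i, hi, hi1, hi2⟩ := exists_index (s := s) (N := k) (t := t0) (by rw [s2]; linarith)
    (by rw [s3]; exact h2)
  have hd := s5 i (by omega) t0 ⟨hi1, hi2.le⟩
  refine ⟨i, hi, H192.sq s(p i, p (i + 1)), ⟨δ * pt (p i), hb (mem_ball.2 hd), ?_⟩,
    cor_sq_face hp i⟩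
  rw [← pos_ro]
  exact inC_pos hδ (cor_sq hp i)

theorem free_off (h : Close Ψ ε δ k p S) (hsep : ∀ z ∈ A, ∀ z' ∈ fArc Ψ, 2 * ε ≤ dist z z')
    (j : ℕ) (hj : j < k) (v : Pt) (hv : Cor v (H192.ro (p j))) : v ∉ Cl δ A := by
  obtain ⟨⟨hδ, h0, hk, hp, hS⟩, hδε, s, s1, s2, s3, s4, s5⟩ := h
  rintro ⟨z, hz, hzv⟩
  have h1 := inC_dist hδ hzv (inC_pos hδ hv)
  rw [pos_ro] at h1
  have h2 := s5 j (by omega) (s j) ⟨le_rfl, s1 (by omega)⟩
  have h3 := hsep z hz (toC (Ψ (circ (s j)))) ⟨s j, ⟨by rw [← s2]; exact s1 (by omega), by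
    rw [← s3]; exact s1 (by omega)⟩, rfl⟩
  have := dist_triangle z (δ * pt (p j)) (toC (Ψ (circ (s j))))
  linarith

theorem wired_off (h : Close Ψ ε δ k p S) (hsep : ∀ z ∈ B, ∀ z' ∈ wArc Ψ, 2 * ε ≤ dist z z')
    (j : ℕ) (hj : k ≤ j) (hjn : j < n) (v : Pt) (hv : Cor v (H192.ro (p j))) : v ∉ Cl δ B := by
  obtain ⟨⟨hδ, h0, hk, hp, hS⟩, hδε, s, s1, s2, s3, s4, s5⟩ := h
  rintro ⟨z, hz, hzv⟩
  have h1 := inC_dist hδ hzv (inC_pos hδ hv)
  rw [pos_ro] at h1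
  have h2 := s5 j (by omega) (s j) ⟨le_rfl, s1 (by omega)⟩
  have h3 := hsep z hz (toC (Ψ (circ (s j)))) ⟨s j, ⟨by rw [← s3]; exact s1 (by omega), by
    rw [← s4]; exact s1 (by omega)⟩, rfl⟩
  have := dist_triangle z (δ * pt (p j)) (toC (Ψ (circ (s j))))
  linarith

end

/-- Two disjoint sets, one compact and one closed, are at a positive distance. -/
theorem exists_sep {X Y : Set ℂ} (hX : IsCompact X) (hY : IsClosed Y) (h : Disjoint X Y) :
    ∃ ε : ℝ, 0 < ε ∧ ∀ x ∈ X, ∀ y ∈ Y, 2 * ε ≤ dist x y := by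
  obtain ⟨d, hd, hdis⟩ := h.exists_thickenings hX hY
  refine ⟨d / 2, by positivity, fun x hx y hy => ?_⟩
  by_contra hn
  push Not at hn
  exact Set.disjoint_left.1 hdis (self_subset_thickening hd _ hx)
    (mem_thickening_iff.2 ⟨y, hy, by linarith⟩)

theorem continuous_arc (Ψ : (ℝ × ℝ) ≃ₜ (ℝ × ℝ)) : Continuous fun t : ℝ => toC (Ψ (circ t)) := by
  have h1 : Continuous circ := by
    unfold circ
    exact Real.continuous_cos.prodMk Real.continuous_sin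
  have h2 : Continuous toC := by
    have : toC = fun z : ℝ × ℝ => (z.1 : ℂ) + z.2 * Complex.I := by
      funext z
      apply Complex.ext <;> simp [toC]
    rw [this]
    fun_prop
  exact h2.comp (Ψ.continuous.comp h1)

theorem isCompact_fArc (Ψ : (ℝ × ℝ) ≃ₜ (ℝ × ℝ)) : IsCompact (fArc Ψ) :=
  isCompact_Icc.image (continuous_arc Ψ)

theorem isCompact_wArc (Ψ : (ℝ × ℝ) ≃ₜ (ℝ × ℝ)) : IsCompact (wArc Ψ) :=
  isCompact_Icc.image (continuous_arc Ψ)

theorem toC_inj : Function.Injective toC := fun _ _ h =>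
  Prod.ext (congrArg Complex.re h) (congrArg Complex.im h)

/-- **(C1) near one marked domain.** -/
theorem c1_dom (Ψ : (ℝ × ℝ) ≃ₜ (ℝ × ℝ)) {A B : Set ℂ} (cA : IsCompact A) (cB : IsCompact B)
    (kA : IsPreconnected A) (kB : IsPreconnected B) (hAB : Disjoint A B)
    (hAf : Disjoint A (fArc Ψ)) (hBw : Disjoint B (wArc Ψ)) {t0 t1 : ℝ}
    (ht0 : t0 ∈ Ioo Real.pi (2 * Real.pi)) (hA0 : toC (Ψ (circ t0)) ∈ interior A)
    (ht1 : t1 ∈ Ico 0 Real.pi) (hB1 : toC (Ψ (circ t1)) ∈ interior B) :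
    ∃ ε : ℝ, 0 < ε ∧ ∀ (δ : ℝ) (N k : ℕ) (p : ZMod N → ℤ × ℤ) (S : Finset (ℤ × ℤ)),
      Close Ψ ε δ k p S → ∀ X ⊆ edges S,
        Hc true (om p k X) (Cl δ A) (Cl δ B) (H192.ro (p (-1))) →
        ∃ T < len p k X, sqm (run p k X T) ∈ Cl δ B ∧ ∀ i ≤ T, sqm (run p k X i) ∉ Cl δ A := by
  obtain ⟨e1, he1, h1⟩ := exists_sep cA (isCompact_fArc Ψ).isClosed hAf
  obtain ⟨e2, he2, h2⟩ := exists_sep cB (isCompact_wArc Ψ).isClosed hBw
  obtain ⟨e3, he3, h3⟩ := exists_sep cA cB.isClosed hAB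
  obtain ⟨e4, he4, h4⟩ := Metric.isOpen_iff.1 isOpen_interior _ hA0
  obtain ⟨e5, he5, h5⟩ := Metric.isOpen_iff.1 isOpen_interior _ hB1
  have hne : 0 < dist (toC (Ψ (circ t0))) (toC (Ψ (circ (2 * Real.pi)))) := by
    rw [dist_pos]
    intro h
    have h6 := Ψ.injective (toC_inj h)
    have h7 := congrArg Prod.snd h6
    simp only [circ, Real.sin_two_pi] at h7
    have h8 : Real.sin t0 < 0 := by
      have h9 := Real.sin_pos_of_pos_of_lt_pi (x := 2 * Real.pi - t0) (by linarith [ht0.2])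
        (by linarith [ht0.1])
      have e : Real.sin (2 * Real.pi - t0) = -Real.sin t0 := by
        rw [Real.sin_two_pi_sub]
      linarith
    linarith
  set e6 := dist (toC (Ψ (circ t0))) (toC (Ψ (circ (2 * Real.pi)))) with he6
  obtain ⟨ε, hε, g1, g2, g3, g4, g5, g6⟩ : ∃ ε : ℝ, 0 < ε ∧ ε ≤ e1 ∧ ε ≤ e2 ∧ ε ≤ e3 ∧ ε ≤ e4 ∧
      ε ≤ e5 ∧ 2 * ε ≤ e6 := by
    refine ⟨min (min (min e1 e2) (min e3 e4)) (min e5 (e6 / 2)), ?_, ?_, ?_, ?_, ?_, ?_, ?_⟩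
    · simp only [lt_min_iff]
      exact ⟨⟨⟨he1, he2⟩, he3, he4⟩, he5, by linarith⟩
    · exact (min_le_left _ _).trans ((min_le_left _ _).trans (min_le_left _ _))
    · exact (min_le_left _ _).trans ((min_le_left _ _).trans (min_le_right _ _))
    · exact (min_le_left _ _).trans ((min_le_right _ _).trans (min_le_left _ _))
    · exact (min_le_left _ _).trans ((min_le_right _ _).trans (min_le_right _ _))
    · exact (min_le_right _ _).trans (min_le_left _ _)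
    · have := (min_le_right (min (min e1 e2) (min e3 e4)) (min e5 (e6 / 2))).trans
        (min_le_right e5 (e6 / 2))
      linarith
  refine ⟨ε, hε, fun δ N k p S hC X hX hhc => ?_⟩
  have hC' := hC
  obtain ⟨⟨hδ, h0, hk, hp, hS⟩, hδε, -⟩ := hC'
  exact run_of_hc hp hS h0 hk hX (adjConn_Cl δ kA) (corConn_Cl δ kB)
    (disjoint_Cl hδ fun x hx y hy => by have := h3 x hx y hy; linarith)
    (wired_hit hC ht0.1.le ht0.2 g6 ((ball_subset_ball g4).trans (h4.trans interior_subset)))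
    (free_off hC fun z hz z' hz' => by have := h1 z hz z' hz'; linarith)
    (free_hit hC ht1.1 ht1.2 ((ball_subset_ball g5).trans (h5.trans interior_subset)))
    (wired_off hC fun z hz z' hz' => by have := h2 z hz z' hz'; linarith) hhc

end Vale.Agent.P167.H714.C1
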