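import Vale.Agent.P167.H714.C1.Hit
import Vale.Agent.P167.QC.Frz

/-!
# P167, general `q`, route (C), (C1): the interface of a lattice polygon and the event `Hc`
-/

namespace Vale.Agent.P167.H714.C1

open Vale.Agent.P167 Relation
open Vale.Agent.P167.E6 Vale.Agent.P167.E2
open Vale.Agent.P145.FB (PStep PConn)
open Vale.Agent.P167.H871 (Pt)
open Vale.Agent.P167.H318 (st)
open Vale.Agent.P167.FKA (Cor)
open Vale.Agent.P167.H476.Q
open Vale.Agent.P167.QC (om run_om)

variable {n : ℕ} {p : ZMod n → ℤ × ℤ} {S : Finset (ℤ × ℤ)} {k : ℕ} {w : Finset (Sym2 (ℤ × ℤ))}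

/-- The bank of the strand, as a path. -/
theorem bank_path (c : Bool) {ω : Cfg} {A : Set Pt} {e0 : Ed} {T : ℕ}
    (hA : ∀ i < T, hdv (st e0 ω i) ∉ A) :
    ReflTransGen (PStep {v | ω v = c ∧ v ∉ A}) (bk c e0) (bk c (st e0 ω T)) := by
  induction T with
  | zero => exact ReflTransGen.refl
  | succ T ih =>
    have h1 := ih fun i hi => hA i (by omega)
    have h2 := step_bk ω (st e0 ω T)
    rw [st_succ]
    by_cases hc : ω (hdv (st e0 ω T)) = c
    · rw [hc] at h2
      refine h1.tail ?_
      obtain ⟨a, b, d⟩ := h2.1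
      refine ⟨a, b, ?_⟩
      rw [d]
      exact ⟨hc, hA T (by omega)⟩
    · have hc' : (!ω (hdv (st e0 ω T))) = c := by
        cases hh : ω (hdv (st e0 ω T)) <;> cases c <;> simp_all
      rw [hc'] at h2
      rw [h2.2]
      exact h1

theorem st_me (c : Medial) (j : ℕ) :
    st (H192.me c) (om p k w) j = H192.me ((next (wiredOpen p k w))^[j] c) := by
  induction j with
  | zero => rfl
  | succ j ih =>
    rw [st_succ, ih, Function.iterate_succ_apply']
    exact H192.nx_me _ (H192.cfg_hdv _)

/-- The square ahead has the vertex of the medial edge as a corner. -/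
theorem cor_ahead (c : Medial) : Cor (hdv (H192.me c)) (H192.ro c.1) := by
  have := (H632.corners (H192.me c)).1
  rwa [H192.ls_me] at this

section

variable (hp : IsPolygon p) (hS : Encloses p S)
include hp hS

/-- The exterior faces around a vertex of the polygon. -/
theorem dual_around {A : Set Pt} (hw : w ⊆ edges S) (i : ZMod n)
    (hA : ∀ v, Cor v (H192.ro (p i)) → v ∉ A) :
    ReflTransGen (PStep {v | om p k w v = false ∧ v ∉ A}) (H192.rf (face (p i) (ri p i)))
      (H192.rf (face (p i) (E2.ro p i - 1))) := by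
  have hω := wired_sub (k := k) hp hS hw
  have h1 := bank_path false (ω := om p k w) (A := A) (e0 := H192.me (p i, ri p i))
    (T := (E2.ro p i - ri p i).val - 1) (by
      intro t ht
      rw [st_me, around hp hS hω i t (by omega)]
      exact hA _ (cor_ahead _))
  rw [st_me, around' hp hS hω i] at h1
  have e1 : bk false (H192.me (p i, ri p i)) = H192.rf (face (p i) (ri p i)) := H192.rs_me _
  have e2 : bk false (H192.me (p i, E2.ro p i - 1)) = H192.rf (face (p i) (E2.ro p i - 1)) :=
    H192.rs_me _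
  rwa [e1, e2] at h1

omit hS in
theorem face_ri_succ (i : ZMod n) : face (p (i + 1)) (ri p (i + 1)) = face (p i) (E2.ro p i - 1) := by
  rw [ri, add_sub_cancel_right, ro_spec hp i, face_right]

/-- **The dual path along the free arc.** -/
theorem dual_free {A : Set Pt} (hw : w ⊆ edges S) {j : ℕ}
    (hA : ∀ i ≤ j, ∀ v, Cor v (H192.ro (p (i : ZMod n))) → v ∉ A) :
    ReflTransGen (PStep {v | om p k w v = false ∧ v ∉ A}) (rs (H192.me (cs p)))
      (H192.rf (face (p j) (E2.ro p j - 1))) := by
  have e0 : rs (H192.me (cs p)) = H192.rf (face (p ((0 : ℕ) : ZMod n)) (ri p ((0 : ℕ) : ZMod n))) := by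
    rw [H192.rs_me]
    have := face_ri_succ hp (-1 : ZMod n)
    rw [neg_add_cancel] at this
    rw [Nat.cast_zero, this]
    rfl
  rw [e0]
  induction j with
  | zero => exact dual_around hp hS hw _ (hA 0 le_rfl)
  | succ j ih =>
    refine (ih fun i hi => hA i (by omega)).trans ?_
    have h1 := face_ri_succ hp (j : ZMod n)
    rw [← h1]
    have h2 := dual_around (k := k) hp hS hw ((j + 1 : ℕ) : ZMod n) (hA (j + 1) le_rfl)
    rw [Nat.cast_succ] at h2 ⊢
    exact h2

/-- The outer side of the wired arc. -/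
theorem outer (hw : w ⊆ edges S) (j : ℕ) (hj : k + j < n) :
    ∃ a, (next (wiredOpen p k w))^[a] (ce p k) =
        (p ((k + j : ℕ) : ZMod n), E2.ro p ((k + j : ℕ) : ZMod n) - 1) ∧
      (∀ i ≤ a, ∃ l, l ≤ j ∧ ((next (wiredOpen p k w))^[i] (ce p k)).1 = p ((k + l : ℕ) : ZMod n)) ∧
      ∀ l < j, ∃ i < a, (next (wiredOpen p k w))^[i] (ce p k) =
        (p ((k + l : ℕ) : ZMod n), E2.ro p ((k + l : ℕ) : ZMod n) - 1) := by
  have hω := wired_sub (k := k) hp hS hw
  induction j with
  | zero =>
    refine ⟨(E2.ro p (k : ZMod n) - ri p (k : ZMod n)).val - 1, ?_, fun i hi => ⟨0, le_rfl, ?_⟩,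
      fun l hl => absurd hl (by omega)⟩
    · exact around' hp hS hω _
    · have h0 : E2.ro p (k : ZMod n) ≠ ri p (k : ZMod n) := (ri_ne_ro hp hS).symm
      have h1 : 0 < (E2.ro p (k : ZMod n) - ri p (k : ZMod n)).val := by
        rw [Nat.pos_iff_ne_zero]
        intro h
        exact h0 (sub_eq_zero.1 (Fin.ext h))
      unfold ce
      rw [around hp hS hω _ i (by omega), add_zero]
  | succ j ih =>
    obtain ⟨a, ha, hb, hc⟩ := ih (by omega)
    set i : ZMod n := ((k + j : ℕ) : ZMod n) with hi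
    have hi1 : ((k + (j + 1) : ℕ) : ZMod n) = i + 1 := by
      rw [hi]
      push_cast
      ring
    have h1 : ahead (p i, E2.ro p i - 1) ∈ wiredOpen p k w := by
      refine Or.inr ⟨k + j, by omega, by omega, ?_⟩
      rw [ahead]
      simp only [fin4_1]
      rw [← ro_spec hp i]
    have h2 : (next (wiredOpen p k w))^[a + 1] (ce p k) = (p (i + 1), ri p (i + 1)) := by
      rw [Function.iterate_succ_apply', ha, next_open h1]
      simp only [fin4_1]
      rw [← ro_spec hp i]
      have h2 : E2.ro p i - 1 - 1 = ri p (i + 1) := by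
        rw [ri, add_sub_cancel_right]
        generalize E2.ro p i = r
        revert r
        decide
      rw [h2]
    have h0 : E2.ro p (i + 1) ≠ ri p (i + 1) := (ri_ne_ro hp hS).symm
    have h3 : 0 < (E2.ro p (i + 1) - ri p (i + 1)).val := by
      rw [Nat.pos_iff_ne_zero]
      intro h
      exact h0 (sub_eq_zero.1 (Fin.ext h))
    refine ⟨((E2.ro p (i + 1) - ri p (i + 1)).val - 1) + (a + 1), ?_, ?_, ?_⟩
    · rw [hi1, Function.iterate_add_apply, h2]
      exact around' hp hS hω _
    · intro t ht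
      rcases Nat.lt_or_ge a t with h | h
      · refine ⟨j + 1, le_rfl, ?_⟩
        obtain ⟨s, rfl⟩ : ∃ s, t = s + (a + 1) := ⟨t - (a + 1), by omega⟩
        rw [Function.iterate_add_apply, h2, around hp hS hω _ s (by omega), hi1]
      · obtain ⟨l, hl, hl2⟩ := hb t h
        exact ⟨l, by omega, hl2⟩
    · intro l hl
      rcases Nat.lt_or_ge l j with h | h
      · obtain ⟨t, ht, ht2⟩ := hc l h
        exact ⟨t, by omega, ht2⟩
      · obtain rfl : l = j := by omega
        exact ⟨a, by omega, ha⟩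

omit hp hS in
/-- **(C1) for the interface of a lattice polygon**: the direct part. -/
theorem hc_of_run {A B : Set Pt} {T : ℕ} (hA : ∀ i < T, hdv (H192.me (run p k w i)) ∉ A)
    (hB : hdv (H192.me (run p k w T)) ∈ B) : Hc true (om p k w) A B (H192.ro (p (-1))) := by
  have e : ∀ j, st (H192.me (cs p)) (om p k w) j = H192.me (run p k w j) := fun j => run_om j
  have h := hc_of_first true (ω := om p k w) (A := A) (B := B) (e0 := H192.me (cs p)) (T := T)
    (fun i hi => by rw [e]; exact hA i hi) (by rw [e]; exact hB)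
  have e2 : bk true (H192.me (cs p)) = H192.ro (p (-1)) := H192.ls_me _
  rwa [e2] at h

/-- **(C1) for the interface of a lattice polygon**: the converse. -/
theorem run_of_hc {A B : Set Pt} (h0 : 0 < k) (hk : k < n) (hw : w ⊆ edges S) (hA : AdjConn A)
    (hB : CorConn B) (hAB : Disjoint A B)
    (hAw : ∃ i : ℕ, k ≤ i ∧ i + 1 < n ∧ H192.sq s(p i, p (i + 1)) ∈ A)
    (hAf : ∀ j : ℕ, j < k → ∀ v, Cor v (H192.ro (p j)) → v ∉ A)
    (hBf : ∃ j : ℕ, j < k ∧ ∃ v ∈ B, Cor v (H192.rf (face (p j) (E2.ro p j - 1))))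
    (hBw : ∀ j : ℕ, k ≤ j → j < n → ∀ v, Cor v (H192.ro (p j)) → v ∉ B)
    (h : Hc true (om p k w) A B (H192.ro (p (-1)))) :
    ∃ T < len p k w, hdv (H192.me (run p k w T)) ∈ B ∧
      ∀ i ≤ T, hdv (H192.me (run p k w i)) ∉ A := by
  classical
  have e : ∀ j, st (H192.me (cs p)) (om p k w) j = H192.me (run p k w j) := fun j => run_om j
  obtain ⟨a, ha, hb, hc⟩ := outer (k := k) (w := w) hp hS hw (n - 1 - k) (by omega)
  have e1 : ((k + (n - 1 - k) : ℕ) : ZMod n) = -1 := by
    have : k + (n - 1 - k) = n - 1 := by omega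
    rw [this, Nat.cast_sub (by have := hp.1; omega)]
    simp
  rw [e1] at ha
  set c : ℕ → Medial := fun i => (next (wiredOpen p k w))^[i] (ce p k) with hcdef
  have hca : c a = cs p := ha
  -- the outer strand meets `A`
  have hex : ∃ i, i < a ∧ hdv (H192.me (c i)) ∈ A := by
    obtain ⟨i, h1, h2, h3⟩ := hAw
    obtain ⟨t, ht, ht2⟩ := hc (i - k) (by omega)
    refine ⟨t, ht, ?_⟩
    rw [show k + (i - k) = i by omega] at ht2
    have : hdv (H192.me (c t)) = H192.sq s(p i, p (i + 1)) := by
      rw [hcdef]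
      simp only
      rw [ht2, H192.hdv_me, ahead]
      simp only [fin4_1]
      rw [← ro_spec hp]
    rw [this]
    exact h3
  -- the last such index
  obtain ⟨i0, ⟨hi0, hi0A⟩, hmax⟩ : ∃ i, (i < a ∧ hdv (H192.me (c i)) ∈ A) ∧
      ∀ j, i < j → j < a → hdv (H192.me (c j)) ∉ A := by
    let P : ℕ → Prop := fun i => i < a ∧ hdv (H192.me (c i)) ∈ A
    have hP : ∀ x, P x → x ≤ a := fun x hx => hx.1.le
    obtain ⟨i, hi⟩ := hex
    refine ⟨Nat.findGreatest P a, Nat.findGreatest_spec (P := P) (hP i hi) hi, fun j h1 h2 h3 => ?_⟩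
    exact absurd (Nat.le_findGreatest (P := P) h2.le ⟨h2, h3⟩) (by omega)
  have hcB : ∀ i ≤ a, hdv (H192.me (c i)) ∉ B := by
    intro i hi
    obtain ⟨l, hl, hl2⟩ := hb i hi
    have h3 := cor_ahead (c i)
    rw [show (c i).1 = p ((k + l : ℕ) : ZMod n) from hl2] at h3
    exact hBw (k + l) (by omega) (by omega) _ h3
  -- the first edge of the closed walk
  set e' : Ed := H192.me (c (i0 + 1)) with he'
  have hst : ∀ i, st e' (om p k w) i = H192.me (c (i0 + 1 + i)) := by
    intro i
    rw [he', st_me]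
    congr 1
    rw [hcdef]
    simp only
    rw [← Function.iterate_add_apply, add_comm]
  have hcs : st e' (om p k w) (a - i0 - 1) = H192.me (cs p) := by
    rw [hst, show i0 + 1 + (a - i0 - 1) = a by omega, hca]
  have htl : tlv e' = hdv (H192.me (c i0)) := by
    have h3 : e' = nx (om p k w) (H192.me (c i0)) := by
      rw [he', hcdef]
      simp only
      rw [Function.iterate_succ_apply']
      exact (H192.nx_me _ (H192.cfg_hdv _)).symm
    rw [h3, tlv_nx]
  -- the forward strand and the exit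
  have hrun : ∀ i, st (H192.me (cs p)) (om p k w) (len p k w + i) = H192.me (c i) := by
    intro i
    rw [e]
    congr 1
    rw [hcdef]
    simp only
    rw [run_add, run_len hp hS hk hw]
  have h00 : hdv (H192.me (cs p)) ∉ A := by
    refine hAf 0 h0 _ ?_
    have h3 := H632.corners (H192.me (cs p))
    rw [H192.hdv_me, cs_ahead hp]
    have h4 : (s(p (-1), p 0) : Sym2 (ℤ × ℤ)) = s(p 0, p (-1)) := Sym2.eq_swap
    obtain ⟨r, hr⟩ : ∃ r, p (-1) = p 0 + dir r := ⟨_, by
      have := ri_spec hp (0 : ZMod n)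
      rw [zero_sub] at this
      exact this⟩
    rw [h4, hr, Nat.cast_zero]
    obtain ⟨h5, h6⟩ := H161.sq_near (p 0) r
    unfold FKA.Cor
    omega
  have key := first_of_hc (ω := om p k w) (A := A) (B := B) (e1 := e') (m := a - i0 - 1) hA hB hAB
    (by rw [htl]; exact hi0A) (by
      intro i hi
      rw [hst]
      exact ⟨hmax _ (by omega) (by omega), hcB _ (by omega)⟩) (by
      rw [hcs]
      exact fun hn => h00 hn.2) (by
      rw [hcs]
      refine ⟨len p k w + i0, Or.inl ?_⟩
      rw [hrun]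
      exact hi0A) (by
      rw [hcs, H192.ls_me]
      exact h) (by
      rw [hcs]
      obtain ⟨j, hj, v, hv, hcor⟩ := hBf
      exact ⟨_, v, hv, hcor, dual_free hp hS hw fun i hi => hAf i (by omega)⟩)
  rw [hcs] at key
  obtain ⟨T, hT1, hT2⟩ := key
  have hTl : T < len p k w := by
    by_contra hn
    push Not at hn
    obtain ⟨s, rfl⟩ : ∃ s, T = len p k w + s := ⟨T - len p k w, by omega⟩
    rcases Nat.lt_or_ge s (i0 + 1) with h3 | h3
    · rw [hrun] at hT1
      exact hcB s (by omega) hT1
    · have h4 := hT2 (len p k w + i0) (by omega)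
      rw [hrun] at h4
      exact h4 hi0A
  refine ⟨T, hTl, ?_, fun i hi => ?_⟩
  · rw [← e]; exact hT1
  · rw [← e]; exact hT2 i hi

end

end Vale.Agent.P167.H714.C1
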